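import Vale.Agent.P146.H425.Ut

/-!
# Exponential locking

Let `F` be convex, `u = W x c F` the value function at an intermediate time, and let the
disorder at this time have the law tilted by `exp (x u)` in a Gaussian window of variance `b ^ 2`.
Then the second difference of `x u` in the direction `v` has the exponential moment
`exp (2 |v|^2 / b^2)` (`ec_window`); consequently a linear observable of the Gibbs sample is
subgaussian around its conditional mean, with the variance proxy `4 |B|^2 / (x^2 b^2)` (`ec`).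
-/

open MeasureTheory ProbabilityTheory

namespace Vale.Agent.P146.H766

open Vale.Agent.P157.Lv Vale.Agent.P146.H425

set_option linter.unusedSectionVars false

variable {κ : Type} [Fintype κ] {F : (κ → ℝ) → ℝ} {D : κ → (κ → ℝ) → ℝ} {B L x x' b c : ℝ}

/-- the exponential tilt of a shift, exactly -/
lemma shift_exp (hb : 0 < b) (x : ℝ) (F : (κ → ℝ) → ℝ) (y v : κ → ℝ) :
    ∫ z, Real.exp (x * F (y + b • z + v)) * Real.exp (-((∑ e, v e * z e) / b)) ∂(gI κ) =
      Real.exp ((∑ e, v e ^ 2) / (2 * b ^ 2)) * ∫ z, Real.exp (x * F (y + b • z)) ∂(gI κ) := by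
  have h := gI_shift ((1 / b) • v) (fun z => Real.exp (x * F (y + b • z)))
  rw [h, ← integral_const_mul]
  refine integral_congr_ae (Filter.Eventually.of_forall fun z => ?_)
  simp only
  have e1 : y + b • (z + (1 / b) • v) = y + b • z + v := by
    rw [smul_add, smul_smul, mul_one_div_cancel hb.ne', one_smul, add_assoc]
  have e2 : ∑ i, ((1 / b) • v) i * z i = (∑ e, v e * z e) / b := by
    rw [Finset.sum_div]
    exact Finset.sum_congr rfl fun i _ => by simp only [Pi.smul_apply, smul_eq_mul]; ring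
  have e3 : ∑ i, ((1 / b) • v) i ^ 2 = (∑ e, v e ^ 2) / b ^ 2 := by
    rw [Finset.sum_div]
    exact Finset.sum_congr rfl fun i _ => by simp only [Pi.smul_apply, smul_eq_mul]; ring
  rw [e1, e2, e3, ← Real.exp_add, ← Real.exp_add, ← Real.exp_add]
  congr 1
  field_simp
  ring

lemma eg_lin (v : κ → ℝ) (a : ℝ) : EG fun z : κ → ℝ => Real.exp (a * ∑ e, v e * z e) := by
  have hl : Lip (fun z : κ → ℝ => ∑ e, v e * z e) :=
    Lip.sum _ fun i _ => (Lip.coord i).const_mul _
  exact hl.exp_eg a

/-- midpoint convexity along a direction -/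
lemma Cv.mid (hc : Cv F) (w v : κ → ℝ) : 2 * F (w + v) ≤ F w + F (w + (2 : ℝ) • v) := by
  have h := hc (1 / 2) (1 / 2) (by norm_num) (by norm_num) (by norm_num) w (w + (2 : ℝ) • v)
  have e : (1 / 2 : ℝ) • w + (1 / 2 : ℝ) • (w + (2 : ℝ) • v) = w + v := by
    ext i
    simp only [Pi.add_apply, Pi.smul_apply, smul_eq_mul]
    ring
  rw [e] at h
  linarith

/-- **Exponential moment of the second difference.** -/
theorem ec_window (hl : LipB F B) (hB : 0 ≤ B) (hc : Cv F) (hx : 0 < x) (hb : 0 < b)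
    (y v : κ → ℝ) :
    ∫ z, Real.exp (x * (F (y + b • z + v) + F (y + b • z - v) - 2 * F (y + b • z))) *
        Real.exp (x * F (y + b • z)) ∂(gI κ) ≤
      Real.exp (2 * (∑ e, v e ^ 2) / b ^ 2) * ∫ z, Real.exp (x * F (y + b • z)) ∂(gI κ) := by
  have key : ∀ v : κ → ℝ,
      ∫ z, Real.exp (x * F (y + b • z + (2 : ℝ) • v)) * Real.exp (-((∑ e, ((2 : ℝ) • v) e * z e) / b))
        ∂(gI κ) =
      Real.exp (2 * (∑ e, v e ^ 2) / b ^ 2) * ∫ z, Real.exp (x * F (y + b • z)) ∂(gI κ) := by
    intro v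
    rw [shift_exp hb]
    congr 2
    have : ∑ e, ((2 : ℝ) • v) e ^ 2 = 4 * ∑ e, v e ^ 2 := by
      rw [Finset.mul_sum]
      exact Finset.sum_congr rfl fun i _ => by
        simp only [Pi.smul_apply, smul_eq_mul]; ring
    rw [this]
    field_simp
    ring
  have egs : ∀ w : κ → ℝ, EG fun z => Real.exp (x * F (y + b • z + w)) := by
    intro w
    have h1 := hl.eg_exp hB (y + w) b x
    have e : (fun z : κ → ℝ => Real.exp (x * F (y + b • z + w))) =
        fun z => Real.exp (x * F (y + w + b • z)) := by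
      funext z
      congr 3
      abel
    rw [e]
    exact h1
  have egl : ∀ w : κ → ℝ, EG fun z : κ → ℝ => Real.exp (-((∑ e, w e * z e) / b)) := by
    intro w
    have h1 := eg_lin w (-(1 / b))
    have e : (fun z : κ → ℝ => Real.exp (-((∑ e, w e * z e) / b))) =
        fun z => Real.exp (-(1 / b) * ∑ e, w e * z e) := by
      funext z
      congr 1
      ring
    rw [e]
    exact h1
  have i1 := ((egs ((2 : ℝ) • v)).mul (egl ((2 : ℝ) • v))).integrable
  have i2 := ((egs ((2 : ℝ) • (-v))).mul (egl ((2 : ℝ) • (-v)))).integrable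
  have k1 := key v
  have k2 := key (-v)
  have e3 : ∑ e, (-v) e ^ 2 = ∑ e, v e ^ 2 :=
    Finset.sum_congr rfl fun i _ => by simp only [Pi.neg_apply]; ring
  rw [e3] at k2
  have h3 : ∀ z, Real.exp (x * (F (y + b • z + v) + F (y + b • z - v) - 2 * F (y + b • z))) *
        Real.exp (x * F (y + b • z)) ≤
      1 / 2 * (Real.exp (x * F (y + b • z + (2 : ℝ) • v)) * Real.exp (-((∑ e, ((2 : ℝ) • v) e * z e) / b))) +
      1 / 2 * (Real.exp (x * F (y + b • z + (2 : ℝ) • (-v))) *
        Real.exp (-((∑ e, ((2 : ℝ) • (-v)) e * z e) / b))) := by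
    intro z
    obtain ⟨w, hw⟩ : ∃ w, w = y + b • z := ⟨_, rfl⟩
    rw [← hw]
    obtain ⟨l, hll⟩ : ∃ l, l = (∑ e, v e * z e) / b := ⟨_, rfl⟩
    have l1 : (∑ e, ((2 : ℝ) • v) e * z e) / b = 2 * l := by
      rw [hll]
      have : ∑ e, ((2 : ℝ) • v) e * z e = 2 * ∑ e, v e * z e := by
        rw [Finset.mul_sum]
        exact Finset.sum_congr rfl fun i _ => by
          simp only [Pi.smul_apply, smul_eq_mul]; ring
      rw [this]; ring
    have l2 : (∑ e, ((2 : ℝ) • (-v)) e * z e) / b = -(2 * l) := by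
      rw [hll]
      have : ∑ e, ((2 : ℝ) • (-v)) e * z e = -(2 * ∑ e, v e * z e) := by
        rw [Finset.mul_sum, ← Finset.sum_neg_distrib]
        exact Finset.sum_congr rfl fun i _ => by
          simp only [Pi.smul_apply, Pi.neg_apply, smul_eq_mul]; ring
      rw [this]; ring
    rw [l1, l2, neg_neg, ← Real.exp_add, ← Real.exp_add, ← Real.exp_add]
    have m1 := Cv.mid hc w v
    have m2 := Cv.mid hc w (-v)
    have m3 : w + -v = w - v := by abel
    rw [m3] at m2
    obtain ⟨P, hP⟩ : ∃ P, P = Real.exp ((x * F (w + (2 : ℝ) • v) + -(2 * l)) / 2) := ⟨_, rfl⟩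
    obtain ⟨Q, hQ⟩ : ∃ Q, Q = Real.exp ((x * F (w + (2 : ℝ) • (-v)) + 2 * l) / 2) := ⟨_, rfl⟩
    have eP : Real.exp (x * F (w + (2 : ℝ) • v) + -(2 * l)) = P ^ 2 := by
      rw [hP, ← Real.exp_nat_mul]; congr 1; push_cast; ring
    have eQ : Real.exp (x * F (w + (2 : ℝ) • (-v)) + 2 * l) = Q ^ 2 := by
      rw [hQ, ← Real.exp_nat_mul]; congr 1; push_cast; ring
    rw [eP, eQ]
    have h4 : Real.exp (x * (F (w + v) + F (w - v) - 2 * F w) + x * F w) ≤ P * Q := by
      rw [hP, hQ, ← Real.exp_add]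
      refine Real.exp_le_exp.2 ?_
      nlinarith [mul_le_mul_of_nonneg_left m1 hx.le, mul_le_mul_of_nonneg_left m2 hx.le]
    nlinarith [sq_nonneg (P - Q)]
  have egL : Integrable (fun z => 1 / 2 * (Real.exp (x * F (y + b • z + (2 : ℝ) • v)) *
        Real.exp (-((∑ e, ((2 : ℝ) • v) e * z e) / b))) +
      1 / 2 * (Real.exp (x * F (y + b • z + (2 : ℝ) • (-v))) *
        Real.exp (-((∑ e, ((2 : ℝ) • (-v)) e * z e) / b)))) (gI κ) :=
    (i1.const_mul _).add (i2.const_mul _)
  have h5 := integral_mono_of_nonneg (μ := gI κ)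
    (Filter.Eventually.of_forall fun z => (mul_pos (Real.exp_pos _) (Real.exp_pos _)).le)
    egL (Filter.Eventually.of_forall h3)
  refine h5.trans (le_of_eq ?_)
  rw [integral_add (i1.const_mul _) (i2.const_mul _), integral_const_mul, integral_const_mul,
    k1, k2]
  ring

/-- the tilted average over a Gaussian window -/
noncomputable def Tx (x c : ℝ) (F f : (κ → ℝ) → ℝ) (w : κ → ℝ) : ℝ :=
  (∫ z, Real.exp (x * F (w + c • z)) * f (w + c • z) ∂(gI κ)) /
    ∫ z, Real.exp (x * F (w + c • z)) ∂(gI κ)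

/-- **Hoelder's inequality in one layer.** -/
theorem ec_step (hl : LipB F B) (hB : 0 ≤ B) (hx : 0 < x) (hxx : x ≤ x') (w v : κ → ℝ) :
    Tx x' c F (fun g => Real.exp (x * (F (g + v) - F g))) w ≤
      Real.exp (x * (W x' c F (w + v) - W x' c F w)) := by
  have hx' : 0 < x' := hx.trans_le hxx
  have p0 := hl.pos hB w c x'
  have p1 := hl.pos hB (w + v) c x'
  have E0 := hl.exp_W hB hx' (s := c) w
  have E1 := hl.exp_W hB hx' (s := c) (w + v)
  obtain ⟨u0, hu0⟩ : ∃ u, u = W x' c F w := ⟨_, rfl⟩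
  obtain ⟨u1, hu1⟩ : ∃ u, u = W x' c F (w + v) := ⟨_, rfl⟩
  rw [← hu0] at E0
  rw [← hu1] at E1
  unfold Tx
  rw [← hu0, ← hu1, ← E0, div_le_iff₀ (Real.exp_pos _)]
  have i0 := (hl.int_exp hB w c x').const_mul (1 - x / x')
  have i1 := (hl.int_exp hB (w + v) c x').const_mul (x / x')
  have hθ0 : 0 ≤ x / x' := by positivity
  have hθ1 : x / x' ≤ 1 := (div_le_one hx').2 hxx
  have key : ∀ z : κ → ℝ, Real.exp (x' * F (w + c • z)) *
      Real.exp (x * (F (w + c • z + v) - F (w + c • z))) ≤
      Real.exp (x * (u1 - u0) + x' * u0) * (Real.exp (-(x' * u1)) *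
        (x / x' * Real.exp (x' * F (w + v + c • z))) +
        Real.exp (-(x' * u0)) * ((1 - x / x') * Real.exp (x' * F (w + c • z)))) := by
    intro z
    have e1 : w + c • z + v = w + v + c • z := by abel
    rw [e1]
    obtain ⟨f0, hf0⟩ : ∃ f, f = F (w + c • z) := ⟨_, rfl⟩
    obtain ⟨f1, hf1⟩ : ∃ f, f = F (w + v + c • z) := ⟨_, rfl⟩
    rw [← hf0, ← hf1]
    have h1 := convexOn_exp.2 (Set.mem_univ (x' * f1 - x' * u1)) (Set.mem_univ (x' * f0 - x' * u0))
      hθ0 (sub_nonneg.2 hθ1) (by ring)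
    simp only [smul_eq_mul] at h1
    have h2 : Real.exp (x' * f0) * Real.exp (x * (f1 - f0)) =
        Real.exp (x * (u1 - u0) + x' * u0) *
          Real.exp (x / x' * (x' * f1 - x' * u1) + (1 - x / x') * (x' * f0 - x' * u0)) := by
      rw [← Real.exp_add, ← Real.exp_add]
      congr 1
      field_simp
      ring
    rw [h2]
    refine mul_le_mul_of_nonneg_left (h1.trans (le_of_eq ?_)) (Real.exp_pos _).le
    rw [sub_eq_add_neg (x' * f1), sub_eq_add_neg (x' * f0), Real.exp_add, Real.exp_add]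
    ring
  have h5 := integral_mono_of_nonneg (μ := gI κ)
    (Filter.Eventually.of_forall fun z => (mul_pos (Real.exp_pos (x' * F (w + c • z)))
      (Real.exp_pos (x * (F (w + c • z + v) - F (w + c • z))))).le)
    (((i1.const_mul (Real.exp (-(x' * u1)))).add
      (i0.const_mul (Real.exp (-(x' * u0))))).const_mul (Real.exp (x * (u1 - u0) + x' * u0)))
    (Filter.Eventually.of_forall key)
  refine h5.trans (le_of_eq ?_)
  rw [integral_const_mul]
  simp only [Pi.add_apply]
  rw [integral_add (i1.const_mul _) (i0.const_mul _), integral_const_mul, integral_const_mul,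
    integral_const_mul, integral_const_mul, ← E0, ← E1]
  have c1 : Real.exp (-(x' * u1)) * Real.exp (x' * u1) = 1 := by
    rw [← Real.exp_add]; simp
  have c0 : Real.exp (-(x' * u0)) * Real.exp (x' * u0) = 1 := by
    rw [← Real.exp_add]; simp
  have e2 : Real.exp (-(x' * u1)) * (x / x' * Real.exp (x' * u1)) +
      Real.exp (-(x' * u0)) * ((1 - x / x') * Real.exp (x' * u0)) = 1 := by
    linear_combination (x / x') * c1 + (1 - x / x') * c0
  rw [e2, mul_one, Real.exp_add]

/-- the convexity gradient inequality -/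
lemma grad_le (h : C11 F D B L) (hc : Cv F) (w v : κ → ℝ) :
    F w + ∑ e, D e w * v e ≤ F (w + v) := by
  by_contra hcon
  push Not at hcon
  obtain ⟨S, hS⟩ : ∃ S, S = ∑ e, D e w * v e := ⟨_, rfl⟩
  rw [← hS] at hcon
  obtain ⟨ε, hε⟩ : ∃ ε, ε = F w + S - F (w + v) := ⟨_, rfl⟩
  have hε0 : 0 < ε := by linarith
  obtain ⟨M, hM⟩ : ∃ M, M = L * ‖v‖ ^ 2 := ⟨_, rfl⟩
  have hM0 : 0 ≤ M := by rw [hM]; have := h.L0; positivity
  -- the step
  obtain ⟨t, ht⟩ : ∃ t, t = min 1 (ε / (2 * (M + 1))) := ⟨_, rfl⟩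
  have ht0 : 0 < t := by rw [ht]; positivity
  have ht1 : t ≤ 1 := by rw [ht]; exact min_le_left _ _
  have ht2 : t * M ≤ ε / 2 := by
    have h1 : t ≤ ε / (2 * (M + 1)) := by rw [ht]; exact min_le_right _ _
    calc t * M ≤ ε / (2 * (M + 1)) * M := mul_le_mul_of_nonneg_right h1 hM0
      _ ≤ ε / 2 := by
          rw [div_mul_eq_mul_div, div_le_div_iff₀ (by positivity) (by norm_num)]
          nlinarith
  have h1 := hc (1 - t) t (by linarith) ht0.le (by ring) w (w + v)
  have e1 : (1 - t) • w + t • (w + v) = w + t • v := by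
    ext i
    simp only [Pi.add_apply, Pi.smul_apply, smul_eq_mul]
    ring
  rw [e1] at h1
  have h2 := (abs_le.1 (h.quad w (t • v))).1
  have e2 : ∑ e, D e w * (t • v) e = t * S := by
    rw [hS, Finset.mul_sum]
    exact Finset.sum_congr rfl fun e _ => by simp only [Pi.smul_apply, smul_eq_mul]; ring
  have e3 : ‖t • v‖ ^ 2 = t ^ 2 * ‖v‖ ^ 2 := by
    rw [norm_smul, Real.norm_eq_abs, mul_pow, sq_abs]
  rw [e2, e3] at h2
  have h3 : t * S - t ^ 2 * M ≤ t * (F (w + v) - F w) := by
    rw [hM]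
    nlinarith
  have h4 : S - t * M ≤ F (w + v) - F w := by
    have : t * (S - t * M) ≤ t * (F (w + v) - F w) := by nlinarith
    exact le_of_mul_le_mul_left this ht0
  linarith

/-- The value function is convex. -/
lemma cv_W (h : C11 F D B L) (hc : Cv F) (hx : 0 < x) (c : ℝ) : Cv (W x c F) := by
  intro a b ha hb hab w0 w1
  have h1 := layer (x0 := x) (x1 := x) (h.shift (a • w0 + b • w1) c) (h.shift w0 c).lip
    (h.shift w0 c).B0 (h.shift w1 c).lip (h.shift w1 c).B0 hx hx ha hb hab
    (fun v0 v1 => ?_) 0 0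
  · rw [← add_mul, hab, one_mul, smul_zero, smul_zero, add_zero, W_shift, W_shift, W_shift] at h1
    exact h1
  · have h2 := hc a b ha hb hab (w0 + c • v0) (w1 + c • v1)
    refine le_trans (le_of_eq ?_) h2
    congr 1
    rw [smul_add, smul_add, smul_add, smul_comm c a, smul_comm c b]
    abel

lemma Tx_mono {f g : (κ → ℝ) → ℝ} (hl : LipB F B) (hB : 0 ≤ B) (x c : ℝ)
    (hf : EG f) (hg : EG g) (hfg : ∀ u, f u ≤ g u) (w : κ → ℝ) :
    Tx x c F f w ≤ Tx x c F g w := by
  unfold Tx
  refine div_le_div_of_nonneg_right ?_ (hl.pos hB w c x).le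
  refine integral_mono ((hl.eg_exp hB w c x).mul (EG.add_smul hf w c)).integrable
    ((hl.eg_exp hB w c x).mul (EG.add_smul hg w c)).integrable fun z => ?_
  exact mul_le_mul_of_nonneg_left (hfg _) (Real.exp_pos _).le

/-- **Exponential locking, for a convex functional.**  `v` is the direction, `m` the conditional
mean of the derivative. -/
theorem ec_F (h : C11 F D B L) (hc : Cv F) (hx : 0 < x) (hx1 : x ≤ 1) (hb : 0 < b) (c : ℝ)
    (y v : κ → ℝ) :
    ∫ z, Real.exp (x * W x c F (y + b • z)) *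
        (Real.exp (-(x * ∑ e, DW x c F D e (y + b • z) * v e)) *
          Tx x c F (fun g => Real.exp (F (g + x • v) - F g)) (y + b • z)) ∂(gI κ) ≤
      Real.exp (2 * (∑ e, v e ^ 2) / b ^ 2) *
        ∫ z, Real.exp (x * W x c F (y + b • z)) ∂(gI κ) := by
  have hW := h.W' hx c
  have hcW := cv_W h hc hx c
  have eg1 : ∀ (a : ℝ) (u : κ → ℝ), EG fun g => Real.exp (a * (F (g + u) - F g)) := by
    intro a u
    have hl1 : Lip fun g => F (g + u) := by
      have := h.lip.comp_add u
      have e : (fun g => F (g + u)) = fun g => F (u + g) := by funext g; rw [add_comm]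
      rw [e]
      exact this.lip h.B0
    have hl2 : Lip fun g => F (g + u) + -1 * F g := hl1.add ((h.lip.lip h.B0).const_mul (-1))
    have e : (fun g => Real.exp (a * (F (g + u) - F g))) =
        fun g => Real.exp (a * (F (g + u) + -1 * F g)) := by
      funext g; congr 2; ring
    rw [e]
    exact hl2.exp_eg a
  have key : ∀ w : κ → ℝ, Real.exp (-(x * ∑ e, DW x c F D e w * v e)) *
      Tx x c F (fun g => Real.exp (F (g + x • v) - F g)) w ≤
      Real.exp (x * (W x c F (w + v) + W x c F (w - v) - 2 * W x c F w)) := by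
    intro w
    have h1 : Tx x c F (fun g => Real.exp (F (g + x • v) - F g)) w ≤
        Tx x c F (fun g => Real.exp (x * (F (g + v) - F g))) w := by
      refine Tx_mono h.lip h.B0 x c (by simpa using eg1 1 (x • v)) (eg1 x v) (fun g => ?_) w
      refine Real.exp_le_exp.2 ?_
      have h2 := hc (1 - x) x (by linarith) hx.le (by ring) g (g + v)
      have e1 : (1 - x) • g + x • (g + v) = g + x • v := by
        ext i
        simp only [Pi.add_apply, Pi.smul_apply, smul_eq_mul]
        ring
      rw [e1] at h2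
      linarith
    have h2 := h1.trans (ec_step (c := c) h.lip h.B0 hx le_rfl w v)
    have h3 := grad_le hW hcW w (-v)
    have e3 : ∑ e, DW x c F D e w * (-v) e = -∑ e, DW x c F D e w * v e := by
      rw [← Finset.sum_neg_distrib]
      exact Finset.sum_congr rfl fun e _ => by simp only [Pi.neg_apply]; ring
    have e4 : w + -v = w - v := by abel
    rw [e3, e4] at h3
    refine (mul_le_mul_of_nonneg_left h2 (Real.exp_pos _).le).trans ?_
    rw [← Real.exp_add]
    refine Real.exp_le_exp.2 ?_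
    nlinarith [mul_le_mul_of_nonneg_left h3 hx.le]
  have hl := h.lip.W h.B0 hx (s := c)
  refine le_trans ?_ (ec_window hl h.B0 hcW hx hb y v)
  refine integral_mono_of_nonneg (Filter.Eventually.of_forall fun z => ?_) ?_
    (Filter.Eventually.of_forall fun z => ?_)
  · refine mul_nonneg (Real.exp_pos _).le (mul_nonneg (Real.exp_pos _).le ?_)
    unfold Tx
    exact div_nonneg (integral_nonneg fun z => (mul_pos (Real.exp_pos _) (Real.exp_pos _)).le)
      (h.lip.pos h.B0 _ c x).le
  · have egs : ∀ w : κ → ℝ, EG fun z => Real.exp (x * W x c F (y + b • z + w)) := by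
      intro w
      have h1 := hl.eg_exp h.B0 (y + w) b x
      have e : (fun z : κ → ℝ => Real.exp (x * W x c F (y + b • z + w))) =
          fun z => Real.exp (x * W x c F (y + w + b • z)) := by
        funext z
        congr 3
        abel
      rw [e]
      exact h1
    have e0 := hl.eg_exp h.B0 y b (-x)
    have h4 := ((egs v).mul (egs (-v))).mul e0
    refine h4.integrable.congr (Filter.Eventually.of_forall fun z => ?_)
    simp only
    have e4 : y + b • z + -v = y + b • z - v := by abel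
    rw [← Real.exp_add, ← Real.exp_add, ← Real.exp_add, e4]
    congr 1
    ring
  · simp only
    rw [mul_comm]
    exact mul_le_mul_of_nonneg_right (key _) (Real.exp_pos _).le

end Vale.Agent.P146.H766
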