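import Vale.Agent.P146.H766.EC
import Vale.Agent.P146.H332.Fe
import Vale.Agent.P146.H325.Pos

/-!
# Exponential locking for Gibbs measures

`cP k S x c w σ` is the conditional probability of the configuration `σ` given the position `w` of
the disorder at an intermediate time (the later window has the standard deviation `c` and is tilted
by the power `x` of the partition function).  If the position itself is tilted by `exp (x u)` in a
window of the standard deviation `b`, then the energy `dE k S B σ` of a fixed direction `B` is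
subgaussian around its conditional mean with the variance proxy `4 |B|^2 / (x b)^2`.
-/

open MeasureTheory ProbabilityTheory

namespace Vale.Agent.P146.H766

open Vale.Agent.P157.Lv Vale.Agent.P146.H425 Vale.Agent.P146.H332 Vale.Agent.P146.H325

set_option linter.unusedSectionVars false

variable {ι : Type} [Fintype ι] [DecidableEq ι] {X : Type} [Fintype X] [Nonempty X]
  [DecidableEq X]
variable (k : ℝ) (S : ι → X → ℝ) (x c : ℝ)

/-- the conditional probabilities given the position `w` -/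
noncomputable def cP (w : ι → ℝ) (σ : X) : ℝ :=
  Tx x c (lz k S) (av k S fun σ' => if σ' = σ then 1 else 0) w

variable {k S x c}

/-- the conditional expectations in the letters of `H325.Pos` -/
lemma Tx_eq_RR (f : (ι → ℝ) → ℝ) (w : ι → ℝ) :
    Tx x c (lz k S) f w = RR k S x (fun _ => c) f w := by
  unfold Tx RR PP DD PP
  simp only [mul_one]
  rfl

lemma eg_Tx {f : (ι → ℝ) → ℝ} (hf : EG f) {C : ℝ} (h : ∀ u, |f u| ≤ C) :
    EG (Tx x c (lz k S) f) := by
  have e : Tx x c (lz k S) f = fun w => RR k S x (fun _ => c) f w := by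
    funext w; exact Tx_eq_RR f w
  rw [e]
  exact EG.of_bdd (meas_RR (k := k) (S := S) (x := x) hf _) fun w => abs_RR_le k S x hf h _ w

lemma Tx_sum {J : Type*} (s : Finset J) {f : J → (ι → ℝ) → ℝ} (hf : ∀ j ∈ s, EG (f j))
    (w : ι → ℝ) :
    Tx x c (lz k S) (fun u => ∑ j ∈ s, f j u) w = ∑ j ∈ s, Tx x c (lz k S) (f j) w := by
  have hl := (c11_lz k S).lip
  have hB := (c11_lz k S).B0
  unfold Tx
  rw [← Finset.sum_div]
  congr 1
  rw [← integral_finsetSum _ fun j hj =>
    ((hl.eg_exp hB w c x).mul (EG.add_smul (hf j hj) w c)).integrable]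
  refine integral_congr_ae (Filter.Eventually.of_forall fun z => ?_)
  simp only
  rw [Finset.mul_sum]

lemma Tx_const_mul (a : ℝ) (f : (ι → ℝ) → ℝ) (w : ι → ℝ) :
    Tx x c (lz k S) (fun u => a * f u) w = a * Tx x c (lz k S) f w := by
  unfold Tx
  rw [← mul_div_assoc, ← integral_const_mul]
  congr 1
  refine integral_congr_ae (Filter.Eventually.of_forall fun z => ?_)
  simp only
  ring

/-- conditional expectations are sums over the configurations -/
theorem sum_cP (h : X → ℝ) (w : ι → ℝ) :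
    ∑ σ, cP k S x c w σ * h σ = Tx x c (lz k S) (av k S h) w := by
  have e : av k S h = fun u => ∑ σ, h σ * av k S (fun σ' => if σ' = σ then 1 else 0) u := by
    funext u
    unfold av
    simp only [mul_ite, mul_one, mul_zero, Finset.sum_ite_eq', Finset.mem_univ, if_true]
    rw [Finset.sum_div]
    exact Finset.sum_congr rfl fun σ _ => by ring
  rw [e, Tx_sum _ fun σ _ => (eg_av k S _).const_mul _]
  refine Finset.sum_congr rfl fun σ _ => ?_
  rw [Tx_const_mul, mul_comm]
  rfl

lemma cP_nonneg (w : ι → ℝ) (σ : X) : 0 ≤ cP k S x c w σ := by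
  unfold cP Tx
  refine div_nonneg (integral_nonneg fun z => mul_nonneg (Real.exp_pos _).le ?_)
    ((c11_lz k S).lip.pos (c11_lz k S).B0 _ c x).le
  refine av_nonneg k S (fun σ' => ?_) _
  split_ifs <;> norm_num

lemma cP_sum (w : ι → ℝ) : ∑ σ, cP k S x c w σ = 1 := by
  have h := sum_cP (k := k) (S := S) (x := x) (c := c) (fun _ => 1) w
  simp only [mul_one] at h
  rw [h]
  have e : av k S (fun _ : X => (1 : ℝ)) = fun _ => 1 := by funext u; exact av_one k S u
  rw [e]
  unfold Tx
  simp only [mul_one]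
  exact div_self ((c11_lz k S).lip.pos (c11_lz k S).B0 _ c x).ne'

lemma eg_cP (σ : X) : EG fun w => cP k S x c w σ :=
  eg_Tx (C := 1) (eg_av k S _) fun u => abs_av_le k S (fun σ' => by split_ifs <;> simp) u

/-- the conditional mean of the energy of the direction `B` -/
noncomputable def mB (k : ℝ) (S : ι → X → ℝ) (x c : ℝ) (B : ι → ℝ) (w : ι → ℝ) : ℝ :=
  ∑ σ, cP k S x c w σ * dE k S B σ

lemma eg_mB (B : ι → ℝ) : EG (mB k S x c B) :=
  EG.sum _ fun σ _ => by
    have := (eg_cP (k := k) (S := S) (x := x) (c := c) σ).const_mul (dE k S B σ)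
    refine cast ?_ this
    congr 1
    funext w
    ring

/-- the derivative of the value function is the conditional mean of the energy -/
lemma sum_DW (B w : ι → ℝ) :
    ∑ e, DW x c (lz k S) (fun e u => k * av k S (S e) u) e w * B e = mB k S x c B w := by
  unfold mB
  rw [sum_cP]
  have e : av k S (dE k S B) = fun u => ∑ e, B e * (k * av k S (S e) u) := by
    funext u
    rw [av_dE]
    exact Finset.sum_congr rfl fun e _ => by ring
  rw [e, Tx_sum _ fun e _ => ((eg_av k S _).const_mul _).const_mul _]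
  refine Finset.sum_congr rfl fun e _ => ?_
  rw [Tx_const_mul, mul_comm]
  rfl

lemma dE_smul (a : ℝ) (B : ι → ℝ) (σ : X) : dE k S (a • B) σ = a * dE k S B σ := by
  unfold dE
  rw [Finset.mul_sum, Finset.mul_sum, Finset.mul_sum]
  exact Finset.sum_congr rfl fun e _ => by simp only [Pi.smul_apply, smul_eq_mul]; ring

/-- **Exponential locking.** -/
theorem ec (hx : 0 < x) (hx1 : x ≤ 1) {b : ℝ} (hb : 0 < b) (B : ι → ℝ) (θ : ℝ) (y : ι → ℝ) :
    ∫ z, Real.exp (x * W x c (lz k S) (y + b • z)) *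
        ∑ σ, cP k S x c (y + b • z) σ *
          Real.exp (θ * (dE k S B σ - mB k S x c B (y + b • z))) ∂(gI ι) ≤
      Real.exp (2 * θ ^ 2 * (∑ e, B e ^ 2) / (x * b) ^ 2) *
        ∫ z, Real.exp (x * W x c (lz k S) (y + b • z)) ∂(gI ι) := by
  have h := ec_F (c11_lz k S) (cv_lz k S) hx hx1 hb c y ((θ / x) • B)
  have e1 : 2 * (∑ e, ((θ / x) • B) e ^ 2) / b ^ 2 = 2 * θ ^ 2 * (∑ e, B e ^ 2) / (x * b) ^ 2 := by
    have : ∑ e, ((θ / x) • B) e ^ 2 = (θ / x) ^ 2 * ∑ e, B e ^ 2 := by
      rw [Finset.mul_sum]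
      exact Finset.sum_congr rfl fun e _ => by simp only [Pi.smul_apply, smul_eq_mul]; ring
    rw [this]
    field_simp
  rw [e1] at h
  refine le_trans (le_of_eq ?_) h
  refine integral_congr_ae (Filter.Eventually.of_forall fun z => ?_)
  simp only
  obtain ⟨w, hw⟩ : ∃ w, w = y + b • z := ⟨_, rfl⟩
  rw [← hw]
  congr 1
  have e2 : x * ∑ e, DW x c (lz k S) (fun e u => k * av k S (S e) u) e w * ((θ / x) • B) e =
      θ * mB k S x c B w := by
    rw [← sum_DW, Finset.mul_sum, Finset.mul_sum]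
    refine Finset.sum_congr rfl fun e _ => ?_
    simp only [Pi.smul_apply, smul_eq_mul]
    field_simp
  have e3 : (fun g : ι → ℝ => Real.exp (lz k S (g + x • (θ / x) • B) - lz k S g)) =
      av k S (fun σ => Real.exp (θ * dE k S B σ)) := by
    funext g
    rw [lz_add, add_sub_cancel_left, Real.exp_log (av_exp_pos k S g _)]
    congr 1
    funext σ
    rw [smul_smul, mul_div_cancel₀ _ hx.ne', dE_smul]
  rw [e2, e3, ← sum_cP, Finset.mul_sum]
  refine Finset.sum_congr rfl fun σ _ => ?_
  have e4 : θ * (dE k S B σ - mB k S x c B w) = -(θ * mB k S x c B w) + θ * dE k S B σ := by ring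
  rw [e4, Real.exp_add]
  ring

lemma abs_mB (B w : ι → ℝ) : |mB k S x c B w| ≤ Kb k S * ‖B‖ := by
  have hb : ∀ σ, |dE k S B σ| ≤ Kb k S * ‖B‖ := abs_dE k S B
  unfold mB
  refine (Finset.abs_sum_le_sum_abs _ _).trans ?_
  have h1 : ∑ σ, |cP k S x c w σ * dE k S B σ| ≤ ∑ σ, cP k S x c w σ * (Kb k S * ‖B‖) := by
    refine Finset.sum_le_sum fun σ _ => ?_
    rw [abs_mul, abs_of_nonneg (cP_nonneg w σ)]
    exact mul_le_mul_of_nonneg_left (hb σ) (cP_nonneg w σ)
  rw [← Finset.sum_mul, cP_sum, one_mul] at h1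
  exact h1

lemma eg_ex (B : ι → ℝ) (θ : ℝ) :
    EG fun w => ∑ σ, cP k S x c w σ * Real.exp (θ * (dE k S B σ - mB k S x c B w)) := by
  refine EG.sum _ fun σ _ => (eg_cP σ).mul ?_
  refine EG.of_bdd (C := Real.exp (|θ| * (2 * (Kb k S * ‖B‖)))) ?_ fun w => ?_
  · exact Real.measurable_exp.comp ((measurable_const.sub (eg_mB B).meas).const_mul θ)
  · rw [abs_of_pos (Real.exp_pos _)]
    refine Real.exp_le_exp.2 ((le_abs_self _).trans ?_)
    rw [abs_mul]
    refine mul_le_mul_of_nonneg_left ?_ (abs_nonneg θ)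
    have h1 := abs_dE k S B σ
    have h2 := abs_mB (k := k) (S := S) (x := x) (c := c) B w
    have h3 := abs_sub (dE k S B σ) (mB k S x c B w)
    linarith

/-- **Exponential locking: the tail.** -/
theorem ec_tail (hx : 0 < x) (hx1 : x ≤ 1) {b V lam : ℝ} (hb : 0 < b) (B : ι → ℝ)
    (hV : ∑ e, B e ^ 2 ≤ V) (hV0 : 0 < V) (hlam : 0 ≤ lam) (y : ι → ℝ) :
    ∫ z, Real.exp (x * W x c (lz k S) (y + b • z)) *
        (∑ σ, cP k S x c (y + b • z) σ *
          if lam ≤ |dE k S B σ - mB k S x c B (y + b • z)| then 1 else 0) ∂(gI ι) ≤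
      2 * Real.exp (-((lam * x * b) ^ 2 / (8 * V))) *
        ∫ z, Real.exp (x * W x c (lz k S) (y + b • z)) ∂(gI ι) := by
  obtain ⟨θ, hθ⟩ : ∃ θ, θ = lam * (x * b) ^ 2 / (4 * V) := ⟨_, rfl⟩
  have hθ0 : 0 ≤ θ := by rw [hθ]; positivity
  have h1 := ec (k := k) (S := S) (c := c) hx hx1 hb B θ y
  have h2 := ec (k := k) (S := S) (c := c) hx hx1 hb B (-θ) y
  have hl := (c11_lz k S).lip.W (c11_lz k S).B0 hx (s := c)
  obtain ⟨A, hA⟩ : ∃ A, A = ∫ z, Real.exp (x * W x c (lz k S) (y + b • z)) ∂(gI ι) := ⟨_, rfl⟩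
  have hA0 : 0 ≤ A := by rw [hA]; exact integral_nonneg fun z => (Real.exp_pos _).le
  rw [← hA] at h1 h2 ⊢
  have e0 : EG fun w => Real.exp (x * W x c (lz k S) w) := (hl.lip (c11_lz k S).B0).exp_eg x
  have i1 := (EG.add_smul (e0.mul (eg_ex (k := k) (S := S) (x := x) (c := c) B θ)) y b).integrable
  have i2 := (EG.add_smul (e0.mul
    (eg_ex (k := k) (S := S) (x := x) (c := c) B (-θ))) y b).integrable
  have hp : ∀ w : ι → ℝ, (∑ σ, cP k S x c w σ *
      if lam ≤ |dE k S B σ - mB k S x c B w| then 1 else 0) ≤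
      Real.exp (-(θ * lam)) *
        (∑ σ, cP k S x c w σ * Real.exp (θ * (dE k S B σ - mB k S x c B w)) +
        ∑ σ, cP k S x c w σ * Real.exp (-θ * (dE k S B σ - mB k S x c B w))) := by
    intro w
    rw [← Finset.sum_add_distrib, Finset.mul_sum]
    refine Finset.sum_le_sum fun σ _ => ?_
    rw [← mul_add, mul_left_comm]
    refine mul_le_mul_of_nonneg_left ?_ (cP_nonneg w σ)
    obtain ⟨d, hd⟩ : ∃ d, d = dE k S B σ - mB k S x c B w := ⟨_, rfl⟩
    rw [← hd]
    split_ifs with hc
    · rw [mul_add, ← Real.exp_add, ← Real.exp_add]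
      rcases le_total 0 d with h | h
      · rw [abs_of_nonneg h] at hc
        have h3 : 0 ≤ -(θ * lam) + θ * d := by nlinarith
        have h4 := Real.one_le_exp h3
        have := Real.exp_pos (-(θ * lam) + -θ * d)
        linarith
      · rw [abs_of_nonpos h] at hc
        have h3 : 0 ≤ -(θ * lam) + -θ * d := by nlinarith
        have h4 := Real.one_le_exp h3
        have := Real.exp_pos (-(θ * lam) + θ * d)
        linarith
    · positivity
  have hV2 : 2 * θ ^ 2 * (∑ e, B e ^ 2) / (x * b) ^ 2 ≤ 2 * θ ^ 2 * V / (x * b) ^ 2 := by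
    gcongr
  have hE := Real.exp_le_exp.2 hV2
  have hb1 := h1.trans (mul_le_mul_of_nonneg_right hE hA0)
  have e5 : (-θ) ^ 2 = θ ^ 2 := by ring
  rw [e5] at h2
  have hb2 := h2.trans (mul_le_mul_of_nonneg_right hE hA0)
  have h5 := integral_mono_of_nonneg (μ := gI ι)
    (f := fun z => Real.exp (x * W x c (lz k S) (y + b • z)) *
        (∑ σ, cP k S x c (y + b • z) σ *
          if lam ≤ |dE k S B σ - mB k S x c B (y + b • z)| then 1 else 0))
    (g := fun z => Real.exp (-(θ * lam)) *
      (Real.exp (x * W x c (lz k S) (y + b • z)) *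
        (∑ σ, cP k S x c (y + b • z) σ *
          Real.exp (θ * (dE k S B σ - mB k S x c B (y + b • z)))) +
      Real.exp (x * W x c (lz k S) (y + b • z)) *
        (∑ σ, cP k S x c (y + b • z) σ *
          Real.exp (-θ * (dE k S B σ - mB k S x c B (y + b • z))))))
    (Filter.Eventually.of_forall fun z => mul_nonneg (Real.exp_pos _).le
      (Finset.sum_nonneg fun σ _ => mul_nonneg (cP_nonneg _ σ) (by split_ifs <;> norm_num)))
    ((i1.add i2).const_mul _)
    (Filter.Eventually.of_forall fun z => by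
      simp only
      have h6 := mul_le_mul_of_nonneg_left (hp (y + b • z))
        (Real.exp_pos (x * W x c (lz k S) (y + b • z))).le
      refine h6.trans (le_of_eq ?_)
      ring)
  refine h5.trans ?_
  rw [integral_const_mul, integral_add i1 i2]
  have h7 := mul_le_mul_of_nonneg_left (add_le_add hb1 hb2) (Real.exp_pos (-(θ * lam))).le
  refine h7.trans (le_of_eq ?_)
  have e6 : -((lam * x * b) ^ 2 / (8 * V)) = -(θ * lam) + 2 * θ ^ 2 * V / (x * b) ^ 2 := by
    rw [hθ]
    field_simp
    ring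
  rw [e6, Real.exp_add]
  ring

end Vale.Agent.P146.H766
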